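import Vale.Agent.P247.H574.Sta2
import Vale.Agent.P247.H74.CE.Sta
import Vale.Agent.P247.H690.END.Sta
import Vale.Agent.P247.H58.LW.Sta

/-!
# P247, stage 2, layer C: statements

From a closed positive integral current `S` in the class `e 2 ∧ e 3`, with the local structure
`LocStr` at every point of its support `K`, to a smooth `K` with a zero free holomorphic one-form
(then `H690.END` gives the torus).

* `HODGE`: a holomorphic one-form `θ` on `K`, nowhere identically zero.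
* `VF`: a normal vector field `V` dual to `θ`, away from the special points.
* `PT`, `SUM`: `∫_Q Φ^* om_f = (∫ f) Q (dx₀ ∧ dx₁)`, for `Φ = id + V`.
* `H58.LW.TRV`, `H58.LW.LW`: the local contributions at the special points.
* `COUNT`: there are no special points.
-/

open scoped ContDiff Topology
open Set MeasureTheory Filter Metric

noncomputable section

namespace Vale.Agent.P247.H574

open Vale.Agent.P247.H74

/-! ## Forms -/

/-- `dxᵢ ∧ dxⱼ` -/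
def dxx (i j : Fin 4) : F2 :=
  ((ContinuousLinearMap.proj i : R4 →L[ℝ] ℝ).smulRight (ContinuousLinearMap.proj j : R4 →L[ℝ] ℝ)) -
  ((ContinuousLinearMap.proj j : R4 →L[ℝ] ℝ).smulRight (ContinuousLinearMap.proj i : R4 →L[ℝ] ℝ))

/-- the standard volume form `vol (u, v, ·, ·)` as a two-form -/
def volF (u v : R4) : F2 :=
  dxx 0 1 u v • dxx 2 3 - dxx 0 2 u v • dxx 1 3 + dxx 0 3 u v • dxx 1 2
    + dxx 1 2 u v • dxx 0 3 - dxx 1 3 u v • dxx 0 2 + dxx 2 3 u v • dxx 0 1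

/-- pullback of a two-form -/
def pb (Φ : R4 → R4) (w : R4 → F2) (x : R4) : F2 :=
  (w (Φ x)).bilinearComp (fderiv ℝ Φ x) (fderiv ℝ Φ x)

/-- the two-form `x ↦ T_y (f (x - y) vol (·, ·, dy, dy))` -/
def omF {D : Data} (S : ICur D) (f : R4 → ℝ) (x : R4) : F2 :=
  ∑ i, ∑ j, (S.T (fun y => f (x - y) • volF (e i) (e j)) / 2) • dxx i j

/-- periodic continuous two-forms -/
structure PerF (φ : R4 → F2) : Prop where
  cont : Continuous φ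
  per : ∀ (k : Fin 4 → ℤ) x, φ (tr k x) = φ x
  alt : ∀ x u, φ x u u = 0

/-- a closed functional of order zero on periodic two-forms -/
structure PF where
  Q : (R4 → F2) → ℝ
  add : ∀ φ ψ, PerF φ → PerF ψ → Q (φ + ψ) = Q φ + Q ψ
  smul : ∀ (c : ℝ) φ, PerF φ → Q (c • φ) = c * Q φ
  bdd : ∃ C, ∀ φ, PerF φ → ∀ M : ℝ, (∀ x, ‖φ x‖ ≤ M) → |Q φ| ≤ C * M
  closed : ∀ l : R4 → R4 →L[ℝ] ℝ, ContDiff ℝ ∞ l → (∀ (k : Fin 4 → ℤ) x, l (tr k x) = l x) →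
    Q (dd l) = 0

/-- `PT`: the current as a functional on periodic forms. -/
def PT_statement : Prop := ∀ (D : Data) (S : ICur D), ∃ Q : PF,
  ∀ χ : R4 → ℝ, Continuous χ → HasCompactSupport χ → (∀ x, ∑' k : Fin 4 → ℤ, χ (tr k x) = 1) →
    ∀ φ, PerF φ → Q.Q φ = S.T (fun x => χ x • φ x)

/-- `SUM` -/
def SUM_statement : Prop := ∀ (D : Data) (S : ICur D) (Q : PF) (V : R4 → R4), ContDiff ℝ ∞ V →
  (∀ (k : Fin 4 → ℤ) x, V (tr k x) = V x) → ∀ f : R4 → ℝ, ContDiff ℝ ∞ f → HasCompactSupport f →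
    PerF (pb (fun x => x + V x) (omF S f)) ∧
    Q.Q (pb (fun x => x + V x) (omF S f)) = (∫ x, f x) * Q.Q (fun _ => dxx 0 1)

/-! ## The holomorphic differential -/

/-- `θ` is a holomorphic one-form on the singular curve `K`, nowhere identically zero -/
structure HolDiff (D : Data) (K : Set R4) (θ : R4 → R4 →L[ℝ] ℂ) : Prop where
  per : ∀ (k : Fin 4 → ℤ) x, θ (tr k x) = θ x
  hol : ∀ x ∈ K, ∀ (N : ℕ) (u : Fin N → ℂ → R4) (ε : ℝ), Brs D K x N u ε → ∀ l, ∃ r > 0,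
    ∃ h : ℂ → ℂ, DifferentiableOn ℂ h (ball 0 r) ∧ (∀ z ∈ ball (0 : ℂ) r, z ≠ 0 → h z ≠ 0) ∧
    ∀ z ∈ ball (0 : ℂ) r, (z ≠ 0 ∨ (N = 1 ∧ fderiv ℝ (u l) 0 1 ≠ 0)) →
      θ (u l z) (fderiv ℝ (u l) z 1) = h z ∧
      θ (u l z) (fderiv ℝ (u l) z Complex.I) = Complex.I * h z

/-- `HODGE` -/
def HODGE_statement : Prop := ∀ (D : Data), Good D → ∀ S : ICur D, (∀ x ∈ S.supp, LocStr S x) →
  ∃ θ, HolDiff D S.supp θ

/-- A regular point: `K` is near `x` an embedded `J`-disc on which `θ` has no zeros. -/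
def Reg (D : Data) (K : Set R4) (θ : R4 → R4 →L[ℝ] ℂ) (x : R4) : Prop :=
  ∃ r > 0, ∃ ε > 0, ∃ (u : ℂ → R4) (h : ℂ → ℂ), ContDiffOn ℝ ∞ u (ball 0 r) ∧ u 0 = x ∧
    InjOn u (ball 0 r) ∧ (∀ y ∈ ball x ε, y ∈ K → ∃ z ∈ ball (0 : ℂ) r, u z = y) ∧
    DifferentiableOn ℂ h (ball 0 r) ∧
    ∀ z ∈ ball (0 : ℂ) r, u z ∈ K ∧ fderiv ℝ u z 1 ≠ 0 ∧
      fderiv ℝ u z Complex.I = D.J (u z) (fderiv ℝ u z 1) ∧ h z ≠ 0 ∧
      θ (u z) (fderiv ℝ u z 1) = h z ∧ θ (u z) (fderiv ℝ u z Complex.I) = Complex.I * h z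

/-- the part of `K` outside the discs of radius `ρ` around the points `p ∈ P` -/
def Out (K : Set R4) (P : Finset R4) (N : R4 → ℕ) (u : ∀ p, Fin (N p) → ℂ → R4) (ρ : ℝ) : Set R4 :=
  {x ∈ K | ∀ p ∈ P, ∀ l, ∀ z ∈ ball (0 : ℂ) ρ, ∀ k : Fin 4 → ℤ, x ≠ tr k (u p l z)}

/-- `VF`: the normal vector field, outside small discs at the points of `P`; it is vertical
(in the complex line of `b p`) inside the discs at `p`. -/
def VF_statement : Prop := ∀ (D : Data) (K : Set R4) (θ : R4 → R4 →L[ℝ] ℂ), IsClosed K →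
  (∀ (k : Fin 4 → ℤ) x, x ∈ K → tr k x ∈ K) →
  (∀ x ∈ K, ∃ (N : ℕ) (u : Fin N → ℂ → R4) (ε : ℝ), Brs D K x N u ε) → HolDiff D K θ →
  ∀ (P : Finset R4) (N : R4 → ℕ) (u : ∀ p, Fin (N p) → ℂ → R4) (ε : R4 → ℝ) (b : R4 → R4)
    (h : ∀ p, Fin (N p) → ℂ → ℂ) (r : ℝ),
  (∀ p ∈ P, p ∈ K ∧ Brs D K p (N p) (u p) (ε p) ∧
    ∀ l, H58.LW.Trans D p (u p l) (b p)) → 0 < r →
  (∀ p ∈ P, ∀ q ∈ P, ∀ k : Fin 4 → ℤ, p = tr k q → p = q ∧ k = 0) →
  (∀ p ∈ P, ∀ l, DifferentiableOn ℂ (h p l) (ball 0 r) ∧ ∀ z ∈ ball (0 : ℂ) r, z ≠ 0 →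
    h p l z ≠ 0 ∧ θ (u p l z) (fderiv ℝ (u p l) z 1) = h p l z ∧
    θ (u p l z) (fderiv ℝ (u p l) z Complex.I) = Complex.I * h p l z) →
  (∀ x ∈ K, Reg D K θ x ∨ ∃ p ∈ P, ∃ k : Fin 4 → ℤ, x = tr k p) →
  ∀ᶠ ρ in 𝓝[>] (0 : ℝ), ∃ V : R4 → R4, ContDiff ℝ ∞ V ∧ (∀ (k : Fin 4 → ℤ) x, V (tr k x) = V x) ∧
    (∀ p ∈ P, ∀ l, ∀ z ∈ closedBall (0 : ℂ) ρ, ∃ w : ℂ, V (u p l z) = cm D p w (b p)) ∧
    (∀ p ∈ P, ∀ l, ∀ z ∈ sphere (0 : ℂ) ρ,
      Om D (u p l z) (fderiv ℝ (u p l) z 1) (V (u p l z)) = h p l z) ∧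
    ∃ c > 0, ∃ d₀ > 0, ∀ d, 0 < d → d ≤ d₀ → ∀ x ∈ Out K P N u ρ, ∀ y ∈ K,
      c * d ≤ dist (x + d • V x) y

/-- `COUNT`: there are no special points. -/
def COUNT_statement : Prop := ∀ (D : Data), Good D → ∀ S : ICur D, (∀ x ∈ S.supp, LocStr S x) →
  ∀ θ, HolDiff D S.supp θ → H690.END.Form S θ

def COUNTX_statement : Prop := MASS_statement → H58.LW.TRV_statement → VF_statement →
  H58.LW.LW_statement → COUNT_statement

/-- `TORX`: assembly of layer C. -/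
def TORX_statement : Prop := HODGE_statement → COUNT_statement → H690.END.Z_statement →
  TOR_statement

end Vale.Agent.P247.H574
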