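import Vale.Agent.P247.H74.Sta

/-!
# P247, stage 2: existence of one embedded `J`-torus for every hypersymplectic triple on `T⁴`

Interface file: the objects passed from one layer to the next and the exact statements of the
layers.  Everything lives on the universal cover `ℝ⁴`.
-/

open scoped ContDiff Topology
open Set MeasureTheory Filter Metric

noncomputable section

namespace Vale.Agent.P247.H574

open Vale.Agent.P247.H74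

/-- bilinear forms on `ℝ⁴` -/
abbrev F2 : Type := R4 →L[ℝ] R4 →L[ℝ] ℝ

/-- translation by a lattice vector -/
def tr (k : Fin 4 → ℤ) (x : R4) : R4 := fun i => x i + k i

/-- the coefficient of `a ∧ b` -/
def w4 (a b : R4 → R4 → ℝ) : ℝ :=
  a (e 0) (e 1) * b (e 2) (e 3) - a (e 0) (e 2) * b (e 1) (e 3) + a (e 0) (e 3) * b (e 1) (e 2)
    + a (e 1) (e 2) * b (e 0) (e 3) - a (e 1) (e 3) * b (e 0) (e 2) + a (e 2) (e 3) * b (e 0) (e 1)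

/-- exterior derivative of a one-form -/
def dd (l : R4 → R4 →L[ℝ] ℝ) (x : R4) : F2 := fderiv ℝ l x - (fderiv ℝ l x).flip

/-- the value of a `CForm` at `x`, as a bilinear form -/
def cf2 (a : CForm) (x : R4) : F2 := a.κ + dd a.lam x

/-! ## Layer A: the Seiberg-Witten sequence -/

/-- covariant derivative `∇ᵤ α = du α - i a(u) α` -/
def nab (a : R4 → R4 →L[ℝ] ℝ) (α : R4 → ℂ) (x u : R4) : ℂ :=
  fderiv ℝ α x u - Complex.I * (a x u : ℂ) * α x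

/-- the gauge invariant Jacobian, a closed two-form of class `2 π dx₀ ∧ dx₁` -/
def jac (a : R4 → R4 →L[ℝ] ℝ) (α : R4 → ℂ) (x u v : R4) : ℝ :=
  (1 - ‖α x‖ ^ 2) * dd a x u v + 2 * ((starRingEnd ℂ) (nab a α x u) * nab a α x v).im

/-- energy density -/
def en (r : ℝ) (a : R4 → R4 →L[ℝ] ℝ) (α : R4 → ℂ) (x : R4) : ℝ :=
  ∑ i, ‖nab a α x (e i)‖ ^ 2 + r * (1 - ‖α x‖ ^ 2) ^ 2 + (1 / r) * ∑ i, ∑ j, dd a x (e i) (e j) ^ 2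

/-- The output of the Seiberg-Witten part. -/
structure Higgs (D : Data) where
  r : ℕ → ℝ
  a : ℕ → R4 → R4 →L[ℝ] ℝ
  α : ℕ → R4 → ℂ
  r_pos : ∀ n, 0 < r n
  r_lim : Tendsto r atTop atTop
  a_smooth : ∀ n, ContDiff ℝ ∞ (a n)
  α_smooth : ∀ n, ContDiff ℝ ∞ (α n)
  a_per : ∀ n (k : Fin 4 → ℤ) x,
    a n (tr k x) = a n x + (2 * Real.pi * k 0) • (ContinuousLinearMap.proj 1 : R4 →L[ℝ] ℝ)
  α_per : ∀ n (k : Fin 4 → ℤ) x,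
    α n (tr k x) = Complex.exp (2 * Real.pi * Complex.I * k 0 * x 1) * α n x
  energy : ∃ C, ∀ n, ∫ x in Icc (0 : R4) 1, en (r n) (a n) (α n) x ≤ C
  pos : ∀ φ : R4 → F2, Continuous φ → (∀ k x, φ (tr k x) = φ x) → (∀ x u, φ x u u = 0) →
    (∀ x u, 0 ≤ φ x u (D.J x u)) → ∀ ε > 0, ∀ᶠ n in atTop,
      -ε ≤ ∫ x in Icc (0 : R4) 1, w4 (jac (a n) (α n) x) (fun u v => φ x u v)

/-- the orientation defined by `J` is the standard one, and the torus class is positive -/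
structure Good (D : Data) : Prop where
  orient : ∀ x, 0 < w4 (fun u v => (D.η 0).val x u v) (fun u v => (D.η 0).val x u v)
  posc : 0 < D.om.κ (e 2) (e 3)

def HIGGS_statement : Prop := ∀ D : Data, Good D → Nonempty (Higgs D)

/-! ## Boxes: local families of `J`-discs -/

/-- polydiscs -/
def PD (r : ℝ) : Set (ℂ × ℂ) := ball 0 r ×ˢ ball 0 r

/-- A chart `Θ (z, y)` on the polydisc of radius 2, all discs `{z} × D` `J`-holomorphic.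
A graph `y = Y z` is `J`-holomorphic iff `∂̄ Y = m ∂ Y + A`. -/
structure Box (D : Data) where
  Θ : ℂ × ℂ → R4
  smooth : ContDiffOn ℝ ∞ Θ (PD 2)
  inj : ∀ p ∈ PD 2, ∀ q ∈ PD 2, ∀ k : Fin 4 → ℤ, Θ p = tr k (Θ q) → p = q ∧ k = 0
  imm : ∀ p ∈ PD 2, Function.Bijective (fderiv ℝ Θ p)
  hol : ∀ p ∈ PD 2, fderiv ℝ Θ p (0, Complex.I) = D.J (Θ p) (fderiv ℝ Θ p (0, 1))
  m : ℂ × ℂ → ℂ
  A : ℂ × ℂ → ℂ
  m_smooth : ContDiffOn ℝ ∞ m (PD 2)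
  A_smooth : ContDiffOn ℝ ∞ A (PD 2)
  m_lt : ∀ p ∈ PD 2, ‖m p‖ < 1
  graph : ∀ p ∈ PD 2, ∀ a b : ℂ, b = m p * a + A p ↔
    ∀ ζ : ℂ, ∃ ξ : ℂ, D.J (Θ p) (fderiv ℝ Θ p (ζ, a * ζ + b * (starRingEnd ℂ) ζ)) =
      fderiv ℝ Θ p (ξ, a * ξ + b * (starRingEnd ℂ) ξ)

/-- the affine model of a pencil of discs: `x₀ + ε (z h + y (v + l h))` -/
def lmod (D : Data) (x₀ v h : R4) (ε : ℝ) (q : ℂ × ℂ × ℂ) : R4 :=
  x₀ + ε • (cm D x₀ q.2.1 h + cm D x₀ q.2.2 v + cm D x₀ (q.1 * q.2.2) h)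

/-- `JD`: local families of `J`-discs, `C²`-close to the affine model. -/
def JD_statement : Prop := ∀ (D : Data) (K δ : ℝ), 0 < K → 0 < δ → ∃ ε₀ > 0, ∀ ε, 0 < ε → ε ≤ ε₀ →
  ∀ x₀ v h : R4, ‖v‖ ≤ K → ‖h‖ ≤ K →
  (∀ a b : ℂ, ‖a‖ + ‖b‖ ≤ K * ‖cm D x₀ a v + cm D x₀ b h‖) →
  ∃ Ξ : ℂ × ℂ × ℂ → R4,
    ContDiffOn ℝ ∞ Ξ (ball (0 : ℂ) 2 ×ˢ ball (0 : ℂ) 2 ×ˢ ball (0 : ℂ) 2) ∧
    (∀ q ∈ ball (0 : ℂ) 2 ×ˢ ball (0 : ℂ) 2 ×ˢ ball (0 : ℂ) 2,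
      fderiv ℝ Ξ q (0, 0, Complex.I) = D.J (Ξ q) (fderiv ℝ Ξ q (0, 0, 1)) ∧
      ‖fderiv ℝ Ξ q - fderiv ℝ (lmod D x₀ v h ε) q‖ ≤ ε * δ ∧
      ‖fderiv ℝ (fderiv ℝ Ξ) q - fderiv ℝ (fderiv ℝ (lmod D x₀ v h ε)) q‖ ≤ ε * δ) ∧
    ∀ l ∈ ball (0 : ℂ) 2, Ξ (l, 0, 0) = x₀

/-- `BX`: boxes, with uniform constants, in families through a given point, `C¹`-close to the
affine model. -/
def BX_statement : Prop := ∀ (D : Data) (K δ : ℝ), 0 < K → 0 < δ →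
  ∃ C > 0, ∃ ε₀ > 0, ∀ ε, 0 < ε → ε ≤ ε₀ →
  ∀ x₀ v h : R4, ‖v‖ ≤ K → ‖h‖ ≤ K →
  (∀ a b : ℂ, ‖a‖ + ‖b‖ ≤ K * ‖cm D x₀ a v + cm D x₀ b h‖) →
  ∃ Ξ : ℂ × ℂ × ℂ → R4,
    ContDiffOn ℝ ∞ Ξ (ball (0 : ℂ) 2 ×ˢ ball (0 : ℂ) 2 ×ˢ ball (0 : ℂ) 2) ∧
    (∀ q ∈ ball (0 : ℂ) 2 ×ˢ ball (0 : ℂ) 2 ×ˢ ball (0 : ℂ) 2,
      fderiv ℝ Ξ q (0, 0, Complex.I) = D.J (Ξ q) (fderiv ℝ Ξ q (0, 0, 1)) ∧
      ‖fderiv ℝ Ξ q - fderiv ℝ (lmod D x₀ v h ε) q‖ ≤ ε * δ) ∧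
    (∀ l ∈ ball (0 : ℂ) 2, Ξ (l, 0, 0) = x₀) ∧
    (∀ l ∈ ball (0 : ℂ) 2, ∃ b : Box D, (∀ p ∈ PD 2, b.Θ p = Ξ (l, p.1, p.2)) ∧
      b.Θ (0, 0) = x₀ ∧ (∀ p ∈ PD 2, ‖b.m p‖ ≤ 1 / 2) ∧
      ∀ p ∈ PD 2, ∀ q ∈ PD 2, ε / C * ‖p - q‖ ≤ ‖b.Θ p - b.Θ q‖ ∧
        ‖b.Θ p - b.Θ q‖ ≤ C * ε * ‖p - q‖) ∧
    ∀ l ∈ ball (0 : ℂ) 2, ∀ l' ∈ ball (0 : ℂ) 2, ∀ y ∈ ball (0 : ℂ) 2, ∀ y' ∈ ball (0 : ℂ) 2,
      ε / C * (‖y - y'‖ + ‖l * y - l' * y'‖) ≤ ‖Ξ (l, 0, y) - Ξ (l', 0, y')‖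

/-! ## Layer B: the integral positive current -/

/-- test forms -/
structure CF (φ : R4 → F2) : Prop where
  cont : Continuous φ
  supp : HasCompactSupport φ
  alt : ∀ x u, φ x u u = 0

/-- `f dx ∧ dy` (area form of the `z`-plane), transported by the box -/
structure IsPush {D : Data} (b : Box D) (f : ℂ × ℂ → ℝ) (φ : R4 → F2) : Prop where
  cf : CF φ
  off : ∀ x, x ∉ b.Θ '' PD 2 → φ x = 0
  on : ∀ p ∈ PD 2, ∀ v w : ℂ × ℂ, φ (b.Θ p) (fderiv ℝ b.Θ p v) (fderiv ℝ b.Θ p w) =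
    f p * (v.1.re * w.1.im - v.1.im * w.1.re)

/-- `ν` is, inside the unit disc, a locally finite sum of Dirac measures -/
def IntM (ν : Measure ℂ) : Prop :=
  ∀ r < 1, ∃ s : Multiset ℂ, ν.restrict (ball 0 r) = (s.map Measure.dirac).sum

/-- A closed positive integral current of bidimension (1,1) in the class `e 2 ∧ e 3`, as a
`ℤ⁴`-invariant functional on compactly supported continuous two-forms on `ℝ⁴`. -/
structure ICur (D : Data) where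
  T : (R4 → F2) → ℝ
  add : ∀ φ ψ, CF φ → CF ψ → T (φ + ψ) = T φ + T ψ
  smul : ∀ (c : ℝ) φ, CF φ → T (c • φ) = c * T φ
  per : ∀ φ, CF φ → ∀ k : Fin 4 → ℤ, T (fun x => φ (tr k x)) = T φ
  closed : ∀ l : R4 → R4 →L[ℝ] ℝ, ContDiff ℝ ∞ l → HasCompactSupport l → T (dd l) = 0
  cls : ∀ χ : R4 → ℝ, Continuous χ → HasCompactSupport χ →
    (∀ x, ∑' k : Fin 4 → ℤ, χ (tr k x) = 1) → ∀ κ : F2, (∀ u, κ u u = 0) →
    T (fun x => χ x • κ) = κ (e 2) (e 3)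
  pos : ∀ φ, CF φ → (∀ x u, 0 ≤ φ x u (D.J x u)) → 0 ≤ T φ
  int : ∀ b : Box D, ∃ ν : ℂ → Measure ℂ,
    (∀ᵐ z ∂volume.restrict (ball (0 : ℂ) 1), IntM (ν z)) ∧
    ∀ f : ℂ × ℂ → ℝ, Continuous f → HasCompactSupport f → tsupport f ⊆ PD 1 →
      IntegrableOn (fun z => ∫ y, f (z, y) ∂(ν z)) (ball 0 1) ∧
      ∀ φ, IsPush b f φ → T φ = ∫ z in ball (0 : ℂ) 1, ∫ y, f (z, y) ∂(ν z)

def ICUR_statement : Prop := ∀ D : Data, Nonempty (Higgs D) → Nonempty (ICur D)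

/-- the support -/
def ICur.supp {D : Data} (S : ICur D) : Set R4 :=
  {x | ∀ ε > 0, ∃ φ, CF φ ∧ tsupport φ ⊆ ball x ε ∧ S.T φ ≠ 0}

/-- `μ` is the measure `T ∧ om` -/
def IsMass {D : Data} (S : ICur D) (μ : Measure R4) : Prop :=
  IsLocallyFiniteMeasure μ ∧ ∀ f : R4 → ℝ, Continuous f → HasCompactSupport f →
    S.T (fun x => f x • cf2 D.om x) = ∫ x, f x ∂μ

/-- `MASS`: the mass measure exists, controls all forms and has the support of `T`. -/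
def MASS_statement : Prop := ∀ (D : Data) (S : ICur D), ∃ μ : Measure R4, IsMass S μ ∧
  (∃ C, ∀ φ, CF φ → |S.T φ| ≤ C * ∫ x, ‖φ x‖ ∂μ) ∧ ∀ x, x ∈ S.supp ↔ ∀ ε > 0, 0 < μ (ball x ε)

/-- `CO`: lower density bound. -/
def CO_statement : Prop := ∀ (D : Data) (S : ICur D) (μ : Measure R4), IsMass S μ →
  ∃ c > 0, ∃ ρ₀ > 0, ∀ x ∈ S.supp, ∀ ρ, 0 < ρ → ρ ≤ ρ₀ →
    ENNReal.ofReal (c * ρ ^ 2) ≤ μ (ball x ρ)

/-- a good box for `T`: no mass near the vertical part of the boundary -/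
def GoodBox {D : Data} (S : ICur D) (b : Box D) (ρ : ℝ) : Prop :=
  0 < ρ ∧ ρ < 1 ∧ ∀ z ∈ closedBall (0 : ℂ) 1, ∀ y ∈ closedBall (0 : ℂ) 1, ρ ≤ ‖y‖ →
    b.Θ (z, y) ∉ S.supp

/-- `GB`: good boxes exist, with the vertical direction as close as we like to a given one, up to
scaling of the coordinates. -/
def GB_statement : Prop := ∀ (D : Data) (S : ICur D), ∀ x ∈ S.supp, ∀ v h : R4, ∀ δ > 0,
  (∀ a b : ℂ, cm D x a v + cm D x b h = 0 → a = 0 ∧ b = 0) →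
  ∃ (b : Box D) (ρ : ℝ), b.Θ (0, 0) = x ∧ GoodBox S b ρ ∧
    ∃ c : ℂ, ∃ l : ℂ, c ≠ 0 ∧ ‖l‖ ≤ δ ∧ fderiv ℝ b.Θ (0, 0) (0, 1) = cm D x c (v + cm D x l h)

/-! ## Multigraphs -/

/-- `∂` and `∂̄` of a function on `ℂ × ℂ` in the direction `v` (`v = (1, 0)` or `(0, 1)`) -/
def dC (f : ℂ × ℂ → ℂ) (p v : ℂ × ℂ) : ℂ :=
  (fderiv ℝ f p v - Complex.I * fderiv ℝ f p (Complex.I • v)) / 2
def dbC (f : ℂ × ℂ → ℂ) (p v : ℂ × ℂ) : ℂ :=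
  (fderiv ℝ f p v + Complex.I * fderiv ℝ f p (Complex.I • v)) / 2

/-- A multigraph with `N` sheets `y = Y z i` over the unit disc, `P z i = ∂ Y`,
`∂̄ Y = m P + A`, with square integrable gradient. -/
structure MG (N : ℕ) (m A : ℂ × ℂ → ℂ) (ρ : ℝ) (Y P : ℂ → Fin N → ℂ) : Prop where
  measY : ∀ i, Measurable fun z => Y z i
  measP : ∀ i, Measurable fun z => P z i
  bdd : ∀ z i, ‖Y z i‖ ≤ ρ
  energy : IntegrableOn (fun z => ∑ i, ‖P z i‖ ^ 2) (ball 0 1)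
  same : ∀ z i j, Y z i = Y z j → P z i = P z j
  chain : ∀ f : ℂ × ℂ → ℂ, ContDiff ℝ ∞ f → HasCompactSupport f →
    tsupport f ⊆ ball (0 : ℂ) 1 ×ˢ univ →
    ∫ z in ball (0 : ℂ) 1, ∑ i, (dC f (z, Y z i) (1, 0) + dC f (z, Y z i) (0, 1) * P z i
      + dbC f (z, Y z i) (0, 1) * (starRingEnd ℂ) (m (z, Y z i) * P z i + A (z, Y z i))) = 0
  chainb : ∀ f : ℂ × ℂ → ℂ, ContDiff ℝ ∞ f → HasCompactSupport f →
    tsupport f ⊆ ball (0 : ℂ) 1 ×ˢ univ →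
    ∫ z in ball (0 : ℂ) 1, ∑ i, (dbC f (z, Y z i) (1, 0)
      + dC f (z, Y z i) (0, 1) * (m (z, Y z i) * P z i + A (z, Y z i))
      + dbC f (z, Y z i) (0, 1) * (starRingEnd ℂ) (P z i)) = 0

/-- A multigraph together with the vertical part `R` of the current (which is zero in the end):
closedness on the forms `f dȳ`. -/
structure MG2 (N : ℕ) (m A : ℂ × ℂ → ℂ) (ρ : ℝ) (Y P : ℂ → Fin N → ℂ) (R : Measure (ℂ × ℂ)) : Prop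
    extends MG N m A ρ Y P where
  Rfin : R univ < ⊤
  Rsupp : ∀ᵐ p ∂(R), ‖p.1‖ < 1 ∧ ‖p.2‖ ≤ ρ
  quad : ∀ f : ℂ × ℂ → ℂ, ContDiff ℝ ∞ f → HasCompactSupport f →
    tsupport f ⊆ ball (0 : ℂ) 1 ×ˢ univ →
    (∫ z in ball (0 : ℂ) 1, ∑ i, (dC f (z, Y z i) (1, 0) * (starRingEnd ℂ) (P z i)
      - dbC f (z, Y z i) (1, 0) * (starRingEnd ℂ) (m (z, Y z i) * P z i + A (z, Y z i))
      + dC f (z, Y z i) (0, 1) *
        ((‖P z i‖ ^ 2 - ‖m (z, Y z i) * P z i + A (z, Y z i)‖ ^ 2 : ℝ) : ℂ)))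
      + ∫ p, dC f p (0, 1) ∂(R) = 0

/-- the tangent vectors of a sheet, in `ℝ⁴` -/
def tan1 {D : Data} (b : Box D) (z y p : ℂ) : R4 :=
  fderiv ℝ b.Θ (z, y) (1, p + (b.m (z, y) * p + b.A (z, y)))
def tan2 {D : Data} (b : Box D) (z y p : ℂ) : R4 :=
  fderiv ℝ b.Θ (z, y) (Complex.I, Complex.I * (p - (b.m (z, y) * p + b.A (z, y))))

/-- `MGX`: in a good box the current is a multigraph, up to a vertical part. -/
def MGX_statement : Prop := ∀ (D : Data) (S : ICur D) (b : Box D) (ρ : ℝ), GoodBox S b ρ →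
  ∃ (N : ℕ) (Y P : ℂ → Fin N → ℂ) (R : Measure (ℂ × ℂ)), MG2 N b.m b.A ρ Y P R ∧
    ∀ φ, CF φ → tsupport φ ⊆ b.Θ '' (ball (0 : ℂ) 1 ×ˢ ball (0 : ℂ) 1) →
      S.T φ = (∫ z in ball (0 : ℂ) 1,
        ∑ i, φ (b.Θ (z, Y z i)) (tan1 b z (Y z i) (P z i)) (tan2 b z (Y z i) (P z i))) +
        ∫ p, φ (b.Θ p) (fderiv ℝ b.Θ p (0, 1)) (fderiv ℝ b.Θ p (0, Complex.I)) ∂(R)

/-- `PUI`: near `z = 0` a multigraph is a sum of branches `(s ^ k, W s)`, and the vertical part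
vanishes. -/
def PUI_statement : Prop := ∀ (N : ℕ) (m A : ℂ × ℂ → ℂ) (ρ : ℝ) (Y P : ℂ → Fin N → ℂ)
  (R : Measure (ℂ × ℂ)),
  ContDiffOn ℝ ∞ m (PD 2) → ContDiffOn ℝ ∞ A (PD 2) → (∀ p ∈ PD 2, ‖m p‖ < 1) → ρ < 1 →
  MG2 N m A ρ Y P R →
  ∃ δ > 0, ∃ (L : ℕ) (k μ : Fin L → ℕ) (W : Fin L → ℂ → ℂ),
    R (ball (0 : ℂ) δ ×ˢ univ) = 0 ∧
    (∀ l, 1 ≤ k l ∧ 1 ≤ μ l) ∧ N = ∑ l, k l * μ l ∧
    (∀ l, ContinuousOn (W l) {s | ‖s‖ ^ k l < δ} ∧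
      ContDiffOn ℝ ∞ (W l) ({s | ‖s‖ ^ k l < δ} \ {0})) ∧
    (∃ C γ : ℝ, 0 < γ ∧ ∀ l s, s ≠ 0 → ‖s‖ ^ k l < δ → ‖W l s - W l 0‖ ≤ C * ‖s‖ ^ γ ∧
      ‖fderiv ℝ (W l) s‖ ≤ C * ‖s‖ ^ (γ - 1)) ∧
    (∀ l s, s ≠ 0 → ‖s‖ ^ k l < δ →
      dbar (W l) s = m (s ^ k l, W l s) * ((starRingEnd ℂ) s / s) ^ (k l - 1) *
        ((1 / 2 : ℂ) * (fderiv ℝ (W l) s 1 - Complex.I * fderiv ℝ (W l) s Complex.I)) +
        A (s ^ k l, W l s) * k l * (starRingEnd ℂ) s ^ (k l - 1)) ∧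
    (∀ l l' s s', s ≠ 0 → ‖s‖ ^ k l < δ → s ^ k l = s' ^ k l' → W l s = W l' s' →
      l = l' ∧ s = s') ∧
    ∀ᵐ z ∂volume.restrict (ball (0 : ℂ) δ), ∀ s : Fin L → ℂ, (∀ l, s l ^ k l = z) →
      ∀ g : ℂ → ℝ, ∑ i, g (Y z i) = ∑ l, (μ l : ℝ) * ∑ j ∈ Finset.range (k l),
        g (W l (Complex.exp (2 * Real.pi * Complex.I * j / k l) * s l))

/-! ## Local structure -/

/-- a smooth `J`-holomorphic map of the unit disc -/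
structure JDisc (D : Data) (u : ℂ → R4) : Prop where
  smooth : ContDiffOn ℝ ∞ u (ball 0 2)
  hol : ∀ z ∈ ball (0 : ℂ) 2, fderiv ℝ u z Complex.I = D.J (u z) (fderiv ℝ u z 1)

/-- Near `x` the closed set `K` is the union of the `J`-discs `u l` through `x`, which are
injective, immersed off `0`, and disjoint outside `x`. -/
structure Brs (D : Data) (K : Set R4) (x : R4) (N : ℕ) (u : Fin N → ℂ → R4) (ε : ℝ) : Prop where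
  posN : 0 < N
  posε : 0 < ε
  disc : ∀ l, JDisc D (u l)
  zero : ∀ l, u l 0 = x
  imm : ∀ l, ∀ z ∈ ball (0 : ℂ) 2, z ≠ 0 → fderiv ℝ (u l) z 1 ≠ 0
  inj : ∀ l l', ∀ z ∈ ball (0 : ℂ) 2, ∀ z' ∈ ball (0 : ℂ) 2, u l z = u l' z' →
    (l = l' ∧ z = z') ∨ (z = 0 ∧ z' = 0)
  far : ∀ l, ∀ z ∈ ball (0 : ℂ) 2, 1 ≤ ‖z‖ → ε ≤ dist (u l z) x
  mem : ∀ l, ∀ z ∈ ball (0 : ℂ) 2, u l z ∈ K
  cov : ∀ y ∈ ball x ε, y ∈ K → ∃ l, ∃ z ∈ ball (0 : ℂ) 1, u l z = y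

/-- integration over a `J`-disc -/
def brI (u : ℂ → R4) (φ : R4 → F2) : ℝ :=
  ∫ z in ball (0 : ℂ) 1, φ (u z) (fderiv ℝ u z 1) (fderiv ℝ u z Complex.I)

/-- `T` is near `x` the sum of finitely many `J`-discs through `x`, injective and disjoint
outside `x`, with multiplicities. -/
def LocStr {D : Data} (S : ICur D) (x : R4) : Prop :=
  ∃ (N : ℕ) (u : Fin N → ℂ → R4) (k : Fin N → ℕ) (ε : ℝ), Brs D S.supp x N u ε ∧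
    (∀ l, 1 ≤ k l) ∧
    ∀ φ, CF φ → tsupport φ ⊆ ball x ε → S.T φ = ∑ l, (k l : ℝ) * brI (u l) φ

/-- `LS`: the local structure theorem. -/
def LS_statement : Prop := ∀ (D : Data) (S : ICur D), ∀ x ∈ S.supp, LocStr S x

/-- from the Puiseux structure to the local structure theorem -/
def LSX_statement : Prop := BX_statement → GB_statement → MGX_statement → PUI_statement →
  LS_statement

/-! ## Layer C: the torus -/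

/-- `TOR`: a current with the local structure contains an embedded torus of the class. -/
def TOR_statement : Prop := ∀ (D : Data), Good D → ∀ S : ICur D, (∀ x ∈ S.supp, LocStr S x) →
  ∃ f : P2 → R4, ContDiff ℝ ∞ f ∧ Per f ∧ (∀ p, Function.Injective (fderiv ℝ (phi f) p)) ∧
    Inj f ∧ ∀ j p, (D.η j).val (phi f p) (ds (phi f) p) (dt (phi f) p) = 0

/-- `LA2`: every hypersymplectic triple gives data for the class `e 2 ∧ e 3`. -/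
def LA2_statement : Prop := ∀ w : Fin 3 → Stmt.Form 2, Stmt.Hypersymplectic w →
  ∃ b c : Fin 3 → ℝ, (∀ s t : ℝ, (∀ i, s * b i + t * c i = 0) → s = 0 ∧ t = 0) ∧
    ∃ D : Data, Good D ∧ (∀ x u v, (D.η 0).val x u v = comb w b 1 x u v) ∧
      ∀ x u v, (D.η 1).val x u v = comb w c 1 x u v

/-- The final theorem: Q1 for the torus. -/
def Q1T4_statement : Prop := ∀ w : Fin 3 → Stmt.Form 2, Stmt.Hypersymplectic w →
  Stmt.Normalized w → ∃ γ : ℝ → Fin 3 → Stmt.Form 2, Stmt.Deformation w γ ∧ Stmt.Hyperkahler (γ 1)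

/-- `ASM`: assembly. -/
def ASM_statement : Prop := HIGGS_statement → ICUR_statement → LS_statement → TOR_statement →
  LA2_statement → FIN_statement → Q1T4_statement

end Vale.Agent.P247.H574
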